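import Mathlib

set_option autoImplicit false

/-!
# Fourier–Walsh coefficients of Boolean functions and composition with a balanced gadget
(helper library for S0085; gadget-agnostic)
-/

namespace Crest.Agent.GS

open Finset

/-- The sign of a Boolean. -/
def sg (b : Bool) : ℝ := if b then 1 else -1

theorem sg_mul_self (b : Bool) : sg b * sg b = 1 := by cases b <;> simp [sg]

theorem sum_sg : ∑ b : Bool, sg b = 0 := by simp [sg]

variable {ι κ : Type*} [Fintype ι] [DecidableEq ι] [Fintype κ] [DecidableEq κ]

/-- The character of the set `S`. -/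
def chi (S : Finset ι) (x : ι → Bool) : ℝ := ∏ i ∈ S, sg (x i)

/-- Unnormalised Fourier–Walsh coefficient. -/
def coef (f : (ι → Bool) → Bool) (S : Finset ι) : ℝ := ∑ x : ι → Bool, sg (f x) * chi S x

/-- Normalised Fourier–Walsh coefficient. -/
noncomputable def ncoef (f : (ι → Bool) → Bool) (S : Finset ι) : ℝ :=
  coef f S / 2 ^ Fintype.card ι

theorem chi_eq_prod_univ (S : Finset ι) (x : ι → Bool) :
    chi S x = ∏ i, if i ∈ S then sg (x i) else 1 := by
  unfold chi
  rw [Finset.prod_ite_mem, Finset.univ_inter]

/-- Sum of a product of one-coordinate functions. -/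
theorem sum_prod_coord {α : Type*} [Fintype α] [DecidableEq α] (h : ι → α → ℝ) :
    ∑ x : ι → α, ∏ i, h i (x i) = ∏ i, ∑ b, h i b := by
  rw [Finset.prod_univ_sum, Fintype.piFinset_univ]

theorem sum_chi (S : Finset ι) :
    ∑ x : ι → Bool, chi S x = if S = ∅ then (2 : ℝ) ^ Fintype.card ι else 0 := by
  simp_rw [chi_eq_prod_univ]
  rw [sum_prod_coord (fun i b => if i ∈ S then sg b else 1)]
  split_ifs with h
  · subst h
    simp
  · obtain ⟨i, hi⟩ := Finset.nonempty_iff_ne_empty.mpr h
    apply Finset.prod_eq_zero (Finset.mem_univ i)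
    simp [hi, sg]

/-- Sum of a character over a level set of `g`. -/
theorem sum_fiber (g : (κ → Bool) → Bool) (b : Bool) (R : Finset κ) :
    ∑ z : κ → Bool, (if g z = b then chi R z else 0) =
      ((∑ z : κ → Bool, chi R z) + sg b * coef g R) / 2 := by
  unfold coef
  rw [Finset.mul_sum, ← Finset.sum_add_distrib, Finset.sum_div]
  apply Finset.sum_congr rfl
  intro z _
  cases hg : g z <;> cases b <;> simp [sg] <;> ring

end Crest.Agent.GS
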