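import Crest.Agent.GS.Basic

set_option autoImplicit false

/-! # Composition of a Boolean function with a balanced gadget -/

namespace Crest.Agent.GS

open Finset

variable {ι κ : Type*} [Fintype ι] [DecidableEq ι] [Fintype κ] [DecidableEq κ]

/-- Block composition `f ∘ g`. -/
def comp (f : (ι → Bool) → Bool) (g : (κ → Bool) → Bool) : (ι × κ → Bool) → Bool :=
  fun x => f (fun i => g (fun j => x (i, j)))

/-- The part of `S` in block `i`. -/
def slice (S : Finset (ι × κ)) (i : ι) : Finset κ := univ.filter (fun j => (i, j) ∈ S)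

/-- The blocks met by `S`. -/
def supp1 (S : Finset (ι × κ)) : Finset ι := univ.filter (fun i => slice S i ≠ ∅)

theorem chi_prod (S : Finset (ι × κ)) (x : ι × κ → Bool) :
    chi S x = ∏ i, chi (slice S i) (fun j => x (i, j)) := by
  rw [chi_eq_prod_univ, Fintype.prod_prod_type]
  apply Finset.prod_congr rfl
  intro i _
  rw [chi_eq_prod_univ]
  apply Finset.prod_congr rfl
  intro j _
  simp [slice]

theorem coef_comp_aux (f : (ι → Bool) → Bool) (g : (κ → Bool) → Bool) (S : Finset (ι × κ)) :
    coef (comp f g) S = ∑ y : ι → Bool, sg (f y) *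
      ∏ i, ∑ z : κ → Bool, (if g z = y i then chi (slice S i) z else 0) := by
  unfold coef
  rw [← (Equiv.curry ι κ Bool).symm.sum_comp]
  have h1 : ∀ X : ι → κ → Bool,
      sg (comp f g ((Equiv.curry ι κ Bool).symm X)) * chi S ((Equiv.curry ι κ Bool).symm X)
      = ∑ y : ι → Bool, sg (f y) *
          ∏ i, (if g (X i) = y i then chi (slice S i) (X i) else 0) := by
    intro X
    rw [Finset.sum_eq_single (fun i => g (X i))]
    · rw [chi_prod]
      simp [comp, Function.uncurry]
    · intro y _ hy
      obtain ⟨i, hi⟩ : ∃ i, g (X i) ≠ y i := by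
        by_contra h
        simp only [not_exists, not_not] at h
        exact hy (funext fun i => (h i).symm)
      rw [Finset.prod_eq_zero (Finset.mem_univ i) (if_neg hi), mul_zero]
    · intro h
      exact absurd (mem_univ _) h
  simp_rw [h1]
  rw [Finset.sum_comm]
  apply Finset.sum_congr rfl
  intro y _
  rw [← Finset.mul_sum, sum_prod_coord (fun i z => if g z = y i then chi (slice S i) z else 0)]

/-- **Composition formula** for a balanced inner function. -/
theorem ncoef_comp (f : (ι → Bool) → Bool) (g : (κ → Bool) → Bool) (hg : coef g ∅ = 0)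
    (S : Finset (ι × κ)) :
    ncoef (comp f g) S =
      ncoef f (supp1 S) * ∏ i, (if slice S i = ∅ then 1 else ncoef g (slice S i)) := by
  unfold ncoef
  rw [coef_comp_aux]
  have h2 : ∀ (y : ι → Bool) (i : ι),
      ∑ z : κ → Bool, (if g z = y i then chi (slice S i) z else 0) =
      ((2 : ℝ) ^ Fintype.card κ / 2) * ((if slice S i = ∅ then 1 else sg (y i)) *
        (if slice S i = ∅ then 1 else coef g (slice S i) / 2 ^ Fintype.card κ)) := by
    intro y i
    rw [sum_fiber, sum_chi]
    split_ifs with h
    · rw [h, hg]; ring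
    · field_simp
      ring
  have h3 : ∀ y : ι → Bool, ∏ i, (if slice S i = ∅ then 1 else sg (y i)) = chi (supp1 S) y := by
    intro y
    rw [chi_eq_prod_univ]
    apply Finset.prod_congr rfl
    intro i _
    by_cases h : slice S i = ∅ <;> simp [supp1, h]
  simp_rw [h2, Finset.prod_mul_distrib, h3, Finset.prod_const, Finset.card_univ]
  rw [Fintype.card_prod]
  unfold coef
  rw [Finset.sum_div, Finset.sum_div, Finset.sum_mul]
  apply Finset.sum_congr rfl
  intro y _
  rw [div_pow, ← pow_mul, mul_comm (Fintype.card κ) (Fintype.card ι)]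
  field_simp

end Crest.Agent.GS
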