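import Crest.Agent.GS.Tower

set_option autoImplicit false

/-!
# S0085 from one balanced gadget

`of_gadget`: a single balanced Boolean function `g` of degree at most `d` whose normalised singleton
coefficients sum to more than `√d` implies the statement of S0085.  (No such gadget is known to us.)
-/

namespace Crest.Agent.GS

open Finset

theorem of_gadget {m : ℕ} (g : (Fin m → Bool) → Bool) (d : ℕ) (hd : 1 ≤ d)
    (hbal : coef g ∅ = 0) (hdeg : DegLE g d) (hL : Real.sqrt d < lsum g) (C : ℝ) (_hC : 0 < C) :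
    ∃ n : ℕ, ∃ f : (Fin n → Bool) → Bool, ∃ d : ℕ,
      (∃ x y, f x ≠ f y) ∧
      (∀ S : Finset (Fin n), d < S.card →
        ∑ x : Fin n → Bool, ((if f x then (1 : ℝ) else -1) *
          ∏ i ∈ S, (if x i then (1 : ℝ) else -1)) = 0) ∧
      C * Real.sqrt d <
        ∑ i : Fin n, (∑ x : Fin n → Bool, ((if f x then (1 : ℝ) else -1) *
          (if x i then (1 : ℝ) else -1))) / 2 ^ n := by
  have hd' : (0 : ℝ) < d := by exact_mod_cast hd
  have hs : 0 < Real.sqrt d := Real.sqrt_pos.mpr hd'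
  have hr : 1 < lsum g / Real.sqrt d := by rwa [one_lt_div hs]
  obtain ⟨k, hk⟩ := pow_unbounded_of_one_lt C hr
  obtain ⟨N, f, hf, hl⟩ := tower g d hbal hdeg k
  have hsk : Real.sqrt ((d ^ k : ℕ) : ℝ) = Real.sqrt d ^ k := by
    have h1 : ((d ^ k : ℕ) : ℝ) = (Real.sqrt d ^ k) ^ 2 := by
      rw [← pow_mul, mul_comm, pow_mul, Real.sq_sqrt hd'.le]
      push_cast
      rfl
    rw [h1, Real.sqrt_sq (pow_nonneg hs.le k)]
  have hmain : C * Real.sqrt ((d ^ k : ℕ) : ℝ) < lsum f := by
    rw [hsk, hl]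
    calc C * Real.sqrt d ^ k < (lsum g / Real.sqrt d) ^ k * Real.sqrt d ^ k :=
          mul_lt_mul_of_pos_right hk (pow_pos hs k)
      _ = lsum g ^ k := by
          rw [div_pow, div_mul_cancel₀ _ (pow_pos hs k).ne']
  have hpos : 0 < lsum f := by
    rw [hl]
    exact pow_pos (hs.trans hL) k
  refine ⟨N, f, d ^ k, exists_ne_of_lsum_ne_zero hpos.ne', ?_, ?_⟩
  · intro S hS
    exact hf S hS
  · have h2 : lsum f = ∑ i : Fin N, (∑ x : Fin N → Bool, ((if f x then (1 : ℝ) else -1) *
        (if x i then (1 : ℝ) else -1))) / 2 ^ N := by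
      unfold lsum ncoef coef chi sg
      simp
    rw [← h2]
    exact hmain

/-- The same with the hypotheses on the gadget in the raw shape of the statement of S0085. -/
theorem of_gadget_raw {m : ℕ} (g : (Fin m → Bool) → Bool) (d : ℕ) (hd : 1 ≤ d)
    (hbal : ∑ x : Fin m → Bool, (if g x then (1 : ℝ) else -1) = 0)
    (hdeg : ∀ S : Finset (Fin m), d < S.card →
      ∑ x : Fin m → Bool, ((if g x then (1 : ℝ) else -1) *
        ∏ i ∈ S, (if x i then (1 : ℝ) else -1)) = 0)
    (hL : Real.sqrt d < ∑ i : Fin m, (∑ x : Fin m → Bool, ((if g x then (1 : ℝ) else -1) *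
        (if x i then (1 : ℝ) else -1))) / 2 ^ m) (C : ℝ) (hC : 0 < C) :
    ∃ n : ℕ, ∃ f : (Fin n → Bool) → Bool, ∃ d : ℕ,
      (∃ x y, f x ≠ f y) ∧
      (∀ S : Finset (Fin n), d < S.card →
        ∑ x : Fin n → Bool, ((if f x then (1 : ℝ) else -1) *
          ∏ i ∈ S, (if x i then (1 : ℝ) else -1)) = 0) ∧
      C * Real.sqrt d <
        ∑ i : Fin n, (∑ x : Fin n → Bool, ((if f x then (1 : ℝ) else -1) *
          (if x i then (1 : ℝ) else -1))) / 2 ^ n := by
  refine of_gadget g d hd ?_ (fun S hS => hdeg S hS) ?_ C hC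
  · unfold coef chi sg
    simpa using hbal
  · have h2 : lsum g = ∑ i : Fin m, (∑ x : Fin m → Bool, ((if g x then (1 : ℝ) else -1) *
        (if x i then (1 : ℝ) else -1))) / 2 ^ m := by
      unfold lsum ncoef coef chi sg
      simp
    rw [h2]
    exact hL

end Crest.Agent.GS
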