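import Crest.Agent.GS.Comp

set_option autoImplicit false

/-! # Degree and level-one sum under composition; transfer to `Fin N`; the tower -/

namespace Crest.Agent.GS

open Finset

variable {ι κ : Type*} [Fintype ι] [DecidableEq ι] [Fintype κ] [DecidableEq κ]

/-- The sum of the normalised singleton coefficients. -/
noncomputable def lsum (f : (ι → Bool) → Bool) : ℝ := ∑ i, ncoef f {i}

/-- All coefficients above level `d` vanish. -/
def DegLE (f : (ι → Bool) → Bool) (d : ℕ) : Prop := ∀ S : Finset ι, d < S.card → coef f S = 0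

theorem ncoef_eq_zero {f : (ι → Bool) → Bool} {S : Finset ι} (h : coef f S = 0) :
    ncoef f S = 0 := by
  unfold ncoef; rw [h, zero_div]

theorem coef_eq_zero_of_ncoef {f : (ι → Bool) → Bool} {S : Finset ι} (h : ncoef f S = 0) :
    coef f S = 0 := by
  unfold ncoef at h
  have h2 : (2 : ℝ) ^ Fintype.card ι ≠ 0 := by positivity
  exact (div_eq_zero_iff.mp h).resolve_right h2

theorem card_eq_sum_slice (S : Finset (ι × κ)) : S.card = ∑ i, (slice S i).card := by
  have h : S.card = ∑ p : ι × κ, if p ∈ S then 1 else 0 := by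
    rw [← Finset.card_filter, Finset.filter_mem_eq_inter, Finset.univ_inter]
  rw [h, Fintype.sum_prod_type]
  apply Finset.sum_congr rfl
  intro i _
  unfold slice
  rw [Finset.card_filter]

theorem degLE_comp {f : (ι → Bool) → Bool} {g : (κ → Bool) → Bool} (hg : coef g ∅ = 0)
    {df dg : ℕ} (hf : DegLE f df) (hgd : DegLE g dg) : DegLE (comp f g) (df * dg) := by
  intro S hS
  apply coef_eq_zero_of_ncoef
  rw [ncoef_comp f g hg]
  by_cases hT : df < (supp1 S).card
  · rw [ncoef_eq_zero (hf _ hT), zero_mul]
  · by_cases hR : ∃ i, dg < (slice S i).card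
    · obtain ⟨i, hi⟩ := hR
      have hne : slice S i ≠ ∅ := by
        intro h; rw [h] at hi; simp at hi
      rw [Finset.prod_eq_zero (Finset.mem_univ i) (by rw [if_neg hne, ncoef_eq_zero (hgd _ hi)]),
        mul_zero]
    · exfalso
      simp only [not_exists, not_lt] at hR hT
      have h1 : S.card = ∑ i ∈ supp1 S, (slice S i).card := by
        rw [card_eq_sum_slice]
        symm
        apply Finset.sum_subset (Finset.subset_univ _)
        intro i _ hi
        simp only [supp1, Finset.mem_filter, Finset.mem_univ, true_and, not_not] at hi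
        rw [hi, Finset.card_empty]
      have h2 : S.card ≤ (supp1 S).card * dg := by
        rw [h1]
        calc ∑ i ∈ supp1 S, (slice S i).card ≤ ∑ _i ∈ supp1 S, dg :=
              Finset.sum_le_sum (fun i _ => hR i)
          _ = (supp1 S).card * dg := by rw [Finset.sum_const, smul_eq_mul]
      have h3 : (supp1 S).card * dg ≤ df * dg := Nat.mul_le_mul_right _ hT
      omega

theorem slice_singleton (i i' : ι) (j : κ) :
    slice ({(i, j)} : Finset (ι × κ)) i' = if i' = i then {j} else ∅ := by
  ext j'
  by_cases h : i' = i <;> simp [slice, h]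

theorem ncoef_comp_singleton (f : (ι → Bool) → Bool) (g : (κ → Bool) → Bool) (hg : coef g ∅ = 0)
    (i : ι) (j : κ) : ncoef (comp f g) {(i, j)} = ncoef f {i} * ncoef g {j} := by
  rw [ncoef_comp f g hg]
  have h1 : supp1 ({(i, j)} : Finset (ι × κ)) = {i} := by
    ext i'
    by_cases h : i' = i <;> simp [supp1, slice_singleton, h]
  rw [h1, Finset.prod_eq_single i]
  · simp [slice_singleton]
  · intro i' _ h
    simp [slice_singleton, h]
  · intro h
    exact absurd (Finset.mem_univ _) h

theorem lsum_comp (f : (ι → Bool) → Bool) (g : (κ → Bool) → Bool) (hg : coef g ∅ = 0) :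
    lsum (comp f g) = lsum f * lsum g := by
  unfold lsum
  rw [Fintype.sum_prod_type, Finset.sum_mul_sum]
  apply Finset.sum_congr rfl
  intro i _
  apply Finset.sum_congr rfl
  intro j _
  exact ncoef_comp_singleton f g hg i j

/-! ### Transfer along a bijection of the index types -/

/-- Relabel the variables. -/
def relabel (e : ι ≃ κ) (f : (ι → Bool) → Bool) : (κ → Bool) → Bool := fun x => f (fun i => x (e i))

theorem coef_relabel (e : ι ≃ κ) (f : (ι → Bool) → Bool) (S : Finset κ) :
    coef (relabel e f) S = coef f (S.map e.symm.toEmbedding) := by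
  unfold coef
  rw [← (Equiv.arrowCongr e (Equiv.refl Bool)).sum_comp]
  apply Finset.sum_congr rfl
  intro x _
  unfold chi relabel
  rw [Finset.prod_map]
  simp [Equiv.arrowCongr]

theorem degLE_relabel (e : ι ≃ κ) {f : (ι → Bool) → Bool} {d : ℕ} (hf : DegLE f d) :
    DegLE (relabel e f) d := by
  intro S hS
  rw [coef_relabel]
  apply hf
  rwa [Finset.card_map]

theorem lsum_relabel (e : ι ≃ κ) (f : (ι → Bool) → Bool) : lsum (relabel e f) = lsum f := by
  unfold lsum ncoef
  rw [← e.sum_comp, Fintype.card_congr e]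
  apply Finset.sum_congr rfl
  intro i _
  rw [coef_relabel]
  simp

/-! ### Non-constancy -/

theorem exists_ne_of_lsum_ne_zero {f : (ι → Bool) → Bool} (h : lsum f ≠ 0) :
    ∃ x y, f x ≠ f y := by
  by_contra hc
  simp only [not_exists, not_not] at hc
  apply h
  unfold lsum
  apply Finset.sum_eq_zero
  intro i _
  apply ncoef_eq_zero
  unfold coef
  have h1 : ∀ x : ι → Bool, sg (f x) * chi {i} x = sg (f (fun _ => true)) * chi {i} x := by
    intro x; rw [hc x (fun _ => true)]
  simp_rw [h1]
  rw [← Finset.mul_sum, sum_chi, if_neg (Finset.singleton_ne_empty i), mul_zero]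

/-! ### The tower -/

theorem tower {m : ℕ} (g : (Fin m → Bool) → Bool) (d : ℕ) (hbal : coef g ∅ = 0)
    (hdeg : DegLE g d) (k : ℕ) :
    ∃ (N : ℕ) (f : (Fin N → Bool) → Bool), DegLE f (d ^ k) ∧ lsum f = lsum g ^ k := by
  induction k with
  | zero =>
    refine ⟨1, fun x => x 0, ?_, ?_⟩
    · intro S hS
      exfalso
      have := Finset.card_le_univ S
      simp at this
      simp at hS
      omega
    · simp [lsum, ncoef, coef, chi, sg_mul_self]
  | succ k ih =>
    obtain ⟨N, f, hf, hl⟩ := ih
    refine ⟨N * m, relabel finProdFinEquiv (comp f g), ?_, ?_⟩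
    · rw [pow_succ]
      exact degLE_relabel _ (degLE_comp hbal hf hdeg)
    · rw [lsum_relabel, lsum_comp f g hbal, hl, pow_succ]

end Crest.Agent.GS
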